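import Vale.Agent.P205F.Chart.Shrink

/-!
# Charts of a surface: existence, restriction, gluing, transfer of goodness to the plane
-/

namespace Vale.Agent.P205F

open Set Function Filter
open scoped Manifold ContDiff Topology

namespace Chart

variable {M : Type*} [TopologicalSpace M] [ChartedSpace E2 M]

lemma injective (ψ : Chart M) : Injective ψ.toFun := ψ.open_emb.injective

lemma continuous (ψ : Chart M) : Continuous ψ.toFun := ψ.open_emb.continuous

lemma isOpen_range (ψ : Chart M) : IsOpen (range ψ.toFun) := ψ.open_emb.isOpen_range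

lemma range_mem_nhds (ψ : Chart M) (x : E2) : range ψ.toFun ∈ 𝓝 (ψ.toFun x) :=
  ψ.isOpen_range.mem_nhds ⟨x, rfl⟩

lemma right_inv (ψ : Chart M) {p : M} (hp : p ∈ range ψ.toFun) : ψ.toFun (ψ.inv p) = p := by
  obtain ⟨x, rfl⟩ := hp; rw [ψ.left_inv]

lemma contMDiffAt_inv (ψ : Chart M) {p : M} (hp : p ∈ range ψ.toFun) :
    ContMDiffAt (𝓡 2) (𝓡 2) ∞ ψ.inv p :=
  ψ.smooth_inv.contMDiffAt (ψ.isOpen_range.mem_nhds hp)

/-- A smooth map on the surface is smooth in every chart. -/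
lemma contDiff_comp (ψ : Chart M) {V : Type*} [NormedAddCommGroup V] [NormedSpace ℝ V]
    {f : M → V} (hf : ContMDiff (𝓡 2) 𝓘(ℝ, V) ∞ f) : ContDiff ℝ ∞ fun z => f (ψ.toFun z) :=
  contMDiff_iff_contDiff.1 (hf.comp ψ.smooth)

/-- Composition with a chart of the plane. -/
noncomputable def comp (ψ : Chart M) (σ : Chart E2) : Chart M where
  toFun := ψ.toFun ∘ σ.toFun
  inv := σ.inv ∘ ψ.inv
  open_emb := ψ.open_emb.comp σ.open_emb
  smooth := ψ.smooth.comp σ.smooth
  left_inv x := by simp [ψ.left_inv, σ.left_inv]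
  smooth_inv := by
    rintro _ ⟨x, rfl⟩
    have h : ψ.inv (ψ.toFun (σ.toFun x)) ∈ range σ.toFun := ⟨x, (ψ.left_inv _).symm⟩
    exact ((σ.contMDiffAt_inv h).comp _ (ψ.contMDiffAt_inv ⟨_, rfl⟩)).contMDiffWithinAt

lemma range_comp_subset (ψ : Chart M) (σ : Chart E2) :
    range (ψ.comp σ).toFun ⊆ range ψ.toFun :=
  range_comp_subset_range σ.toFun ψ.toFun

/-- The transition to a smaller chart, as a chart of the plane. -/
noncomputable def pull (ψ φ : Chart M) (h : range φ.toFun ⊆ range ψ.toFun) : Chart E2 where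
  toFun := ψ.inv ∘ φ.toFun
  inv := φ.inv ∘ ψ.toFun
  open_emb := by
    refine Topology.IsOpenEmbedding.of_continuous_injective_isOpenMap ?_ ?_ ?_
    · exact ψ.smooth_inv.continuousOn.comp_continuous φ.continuous fun x => h ⟨x, rfl⟩
    · intro x y hxy
      apply φ.injective
      rw [← ψ.right_inv (h ⟨x, rfl⟩), ← ψ.right_inv (h ⟨y, rfl⟩)]
      exact congrArg ψ.toFun hxy
    · intro U hU
      have himg : (ψ.inv ∘ φ.toFun) '' U = ψ.toFun ⁻¹' (φ.toFun '' U) := by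
        ext z
        constructor
        · rintro ⟨u, hu, rfl⟩; exact ⟨u, hu, (ψ.right_inv (h ⟨u, rfl⟩)).symm⟩
        · rintro ⟨u, hu, huz⟩; exact ⟨u, hu, by simp [huz, ψ.left_inv]⟩
      rw [himg]
      exact (φ.open_emb.isOpenMap _ hU).preimage ψ.continuous
  smooth := ψ.smooth_inv.comp_contMDiff φ.smooth fun x => h ⟨x, rfl⟩
  left_inv x := by simp [ψ.right_inv (h ⟨x, rfl⟩), φ.left_inv]
  smooth_inv := by
    rintro _ ⟨x, rfl⟩
    refine ((φ.contMDiffAt_inv ?_).comp _ ψ.smooth.contMDiffAt).contMDiffWithinAt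
    exact ⟨x, by simp [ψ.right_inv (h ⟨x, rfl⟩)]⟩

lemma comp_pull_apply (ψ φ : Chart M) (h : range φ.toFun ⊆ range ψ.toFun) (z : E2) :
    ψ.toFun ((ψ.pull φ h).toFun z) = φ.toFun z :=
  ψ.right_inv (h ⟨z, rfl⟩)

/-- A chart with the same germ at `x` inside a given neighbourhood. -/
theorem exists_restrict (ψ : Chart M) (x : E2) {U : Set M} (hU : U ∈ 𝓝 (ψ.toFun x)) :
    ∃ φ : Chart M, range φ.toFun ⊆ U ∩ range ψ.toFun ∧ φ.toFun =ᶠ[𝓝 x] ψ.toFun := by
  obtain ⟨σ, hσ, hσx⟩ := exists_shrink (ψ.continuous.continuousAt.preimage_mem_nhds hU)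
  refine ⟨ψ.comp σ, ?_, hσx.mono fun z hz => congrArg ψ.toFun hz⟩
  rintro _ ⟨z, rfl⟩
  exact ⟨hσ ⟨z, rfl⟩, ⟨σ.toFun z, rfl⟩⟩

/-- A chart around a point inside a given neighbourhood. -/
theorem exists_mem [IsManifold (𝓡 2) ∞ M] {p : M} {U : Set M} (hU : U ∈ 𝓝 p) :
    ∃ (ψ : Chart M) (x : E2), ψ.toFun x = p ∧ range ψ.toFun ⊆ U := by
  let e := chartAt E2 p
  have hp : p ∈ e.source := mem_chart_source E2 p
  have hV : e.target ∩ e.symm ⁻¹' U ∈ 𝓝 (e p) :=
    inter_mem (e.open_target.mem_nhds (e.map_source hp))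
      ((e.continuousAt_symm (e.map_source hp)).preimage_mem_nhds (by rwa [e.left_inv hp]))
  obtain ⟨σ, hσ, hσx⟩ := exists_shrink hV
  have ht : ∀ z, σ.toFun z ∈ e.target := fun z => (hσ ⟨z, rfl⟩).1
  let φ : Chart M :=
    { toFun := e.symm ∘ σ.toFun
      inv := σ.inv ∘ e
      open_emb := by
        refine Topology.IsOpenEmbedding.of_continuous_injective_isOpenMap
          (e.continuousOn_symm.comp_continuous σ.continuous ht)
          (fun a b h => σ.injective (e.symm.injOn (ht a) (ht b) h)) fun O hO => ?_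
        rw [image_comp]
        refine e.symm.isOpen_image_of_subset_source (σ.open_emb.isOpenMap O hO) ?_
        rintro _ ⟨z, -, rfl⟩
        exact ht z
      smooth := (contMDiffOn_chart_symm (x := p)).comp_contMDiff σ.smooth ht
      left_inv := fun z => by simp [e.right_inv (ht z), σ.left_inv]
      smooth_inv := by
        rintro _ ⟨z, rfl⟩
        refine ((σ.contMDiffAt_inv (p := e (e.symm (σ.toFun z))) ?_).comp _ ?_).contMDiffWithinAt
        · exact ⟨z, (e.right_inv (ht z)).symm⟩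
        · exact (contMDiffOn_chart (x := p)).contMDiffAt
            (e.open_source.mem_nhds (e.map_target (ht z))) }
  refine ⟨φ, e p, ?_, ?_⟩
  · show e.symm (σ.toFun (e p)) = p
    rw [hσx.eq_of_nhds, id, e.left_inv hp]
  · rintro _ ⟨z, rfl⟩
    exact (hσ ⟨z, rfl⟩).2

/-- Smoothness can be checked in charts. -/
lemma contMDiff_of_forall [IsManifold (𝓡 2) ∞ M] {V : Type*} [NormedAddCommGroup V]
    [NormedSpace ℝ V] {f : M → V} (hf : ∀ ψ : Chart M, ContDiff ℝ ∞ fun z => f (ψ.toFun z)) :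
    ContMDiff (𝓡 2) 𝓘(ℝ, V) ∞ f := by
  intro p
  obtain ⟨ψ, x, rfl, -⟩ := exists_mem (Filter.univ_mem (f := 𝓝 p))
  refine (((hf ψ).contMDiff.contMDiffAt).comp _
    (ψ.contMDiffAt_inv ⟨x, rfl⟩)).congr_of_eventuallyEq ?_
  filter_upwards [ψ.range_mem_nhds x] with q hq
  simp [ψ.right_inv hq]

/-- Extension by zero of a function of the coordinates. -/
noncomputable def ext {V : Type*} [Zero V] (ψ : Chart M) (h : E2 → V) : M → V :=
  (range ψ.toFun).indicator (h ∘ ψ.inv)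

@[simp] lemma ext_apply {V : Type*} [Zero V] (ψ : Chart M) (h : E2 → V) (x : E2) :
    ψ.ext h (ψ.toFun x) = h x := by
  simp [ext, ψ.left_inv]

lemma ext_of_notMem {V : Type*} [Zero V] (ψ : Chart M) (h : E2 → V) {p : M}
    (hp : p ∉ range ψ.toFun) : ψ.ext h p = 0 := indicator_of_notMem hp _

/-- Replace a map inside a chart. -/
noncomputable def glue {V : Type*} (ψ : Chart M) (u : E2 → V) (f : M → V) : M → V :=
  haveI : ∀ p, Decidable (p ∈ range ψ.toFun) := fun _ => Classical.propDecidable _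
  (range ψ.toFun).piecewise (u ∘ ψ.inv) f

@[simp] lemma glue_apply {V : Type*} (ψ : Chart M) (u : E2 → V) (f : M → V) (x : E2) :
    ψ.glue u f (ψ.toFun x) = u x := by
  simp [glue, ψ.left_inv]

lemma glue_of_notMem {V : Type*} (ψ : Chart M) (u : E2 → V) (f : M → V) {p : M}
    (hp : p ∉ range ψ.toFun) : ψ.glue u f p = f p := by
  simp [glue, hp]

lemma glue_eq_off {V : Type*} (ψ : Chart M) {u : E2 → V} {f : M → V} {K : Set E2}
    (hK : ∀ x, x ∉ K → u x = f (ψ.toFun x)) {p : M} (hp : p ∉ ψ.toFun '' K) :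
    ψ.glue u f p = f p := by
  by_cases h : p ∈ range ψ.toFun
  · obtain ⟨x, rfl⟩ := h
    rw [glue_apply]
    exact hK x fun hx => hp ⟨x, hx, rfl⟩
  · exact ψ.glue_of_notMem u f h

lemma glue_contMDiff [T2Space M] {V : Type*} [NormedAddCommGroup V] [NormedSpace ℝ V]
    (ψ : Chart M) {u : E2 → V} {f : M → V} {K : Set E2} (hu : ContDiff ℝ ∞ u)
    (hf : ContMDiff (𝓡 2) 𝓘(ℝ, V) ∞ f) (hK : IsCompact K)
    (heq : ∀ x, x ∉ K → u x = f (ψ.toFun x)) : ContMDiff (𝓡 2) 𝓘(ℝ, V) ∞ (ψ.glue u f) := by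
  intro p
  by_cases hp : p ∈ ψ.toFun '' K
  · obtain ⟨x, -, rfl⟩ := hp
    refine ((hu.contMDiff.contMDiffAt).comp _
      (ψ.contMDiffAt_inv ⟨x, rfl⟩)).congr_of_eventuallyEq ?_
    filter_upwards [ψ.range_mem_nhds x] with q hq
    obtain ⟨z, rfl⟩ := hq
    simp [ψ.left_inv]
  · refine hf.contMDiffAt.congr_of_eventuallyEq ?_
    filter_upwards [((hK.image ψ.continuous).isClosed.isOpen_compl.mem_nhds hp)] with q hq
    exact ψ.glue_eq_off heq hq

lemma ext_eq_glue {V : Type*} [Zero V] (ψ : Chart M) (h : E2 → V) :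
    ψ.ext h = ψ.glue h 0 := by
  funext p
  by_cases hp : p ∈ range ψ.toFun
  · obtain ⟨x, rfl⟩ := hp; simp
  · rw [ext_of_notMem ψ h hp, ψ.glue_of_notMem h 0 hp]; rfl

lemma ext_contMDiff [T2Space M] {V : Type*} [NormedAddCommGroup V] [NormedSpace ℝ V]
    (ψ : Chart M) {h : E2 → V} (hh : ContDiff ℝ ∞ h) (hc : HasCompactSupport h) :
    ContMDiff (𝓡 2) 𝓘(ℝ, V) ∞ (ψ.ext h) := by
  rw [ext_eq_glue]
  exact ψ.glue_contMDiff hh contMDiff_const hc fun x hx => image_eq_zero_of_notMem_tsupport hx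

lemma tsupport_ext [T2Space M] {V : Type*} [Zero V] (ψ : Chart M)
    {h : E2 → V} (hc : HasCompactSupport h) : tsupport (ψ.ext h) ⊆ ψ.toFun '' tsupport h := by
  refine closure_minimal (fun p hp => ?_) (hc.image ψ.continuous).isClosed
  by_cases hr : p ∈ range ψ.toFun
  · obtain ⟨x, rfl⟩ := hr
    exact ⟨x, subset_tsupport _ (by simpa using hp), rfl⟩
  · exact absurd (ψ.ext_of_notMem h hr) hp

end Chart

/-! ### Jets and goodness -/

lemma jet_congr {N : ℕ} {f g : E2 → R4} {x : E2} (h : f =ᶠ[𝓝 x] g) : jet N f x = jet N g x :=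
  funext fun k => (h.iteratedFDeriv ℝ (k : ℕ)).eq_of_nhds

lemma continuous_jet {N : ℕ} {f : E2 → R4} (hf : ContDiff ℝ ∞ f) : Continuous (jet N f) :=
  continuous_pi fun k => hf.continuous_iteratedFDeriv (by exact_mod_cast le_top)

variable {M : Type*} [TopologicalSpace M] [ChartedSpace E2 M]

lemma GdAt.congr {f g : M → R4} {p : M} (h : GdAt f p) (he : f =ᶠ[𝓝 p] g) : GdAt g p := by
  obtain ⟨I, ψ, x, rfl, hx⟩ := h
  refine ⟨I, ψ, x, rfl, ?_⟩
  rwa [← jet_congr (f := fun z => f (ψ.toFun z)) (g := fun z => g (ψ.toFun z))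
    (he.comp_tendsto ψ.continuous.continuousAt)]

lemma GdAt.eventually {f : M → R4} {p : M} (hf : ContMDiff (𝓡 2) (𝓡 4) ∞ f) (h : GdAt f p) :
    ∀ᶠ q in 𝓝 p, GdAt f q := by
  obtain ⟨I, ψ, x, rfl, hx⟩ := h
  have hc : Continuous fun z => I.den (jet I.N (fun y => f (ψ.toFun y)) z) :=
    I.den_temperate.1.continuous.comp (continuous_jet (ψ.contDiff_comp hf))
  rw [← ψ.open_emb.map_nhds_eq x, eventually_map]
  filter_upwards [hc.continuousAt.eventually (lt_mem_nhds hx)] with z hz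
  exact ⟨I, ψ, z, rfl, hz⟩

lemma isOpen_gdAt {f : M → R4} (hf : ContMDiff (𝓡 2) (𝓡 4) ∞ f) : IsOpen {p | GdAt f p} :=
  isOpen_iff_mem_nhds.2 fun _ hp => GdAt.eventually hf hp

/-- Goodness on the surface is goodness of the coordinate expression. -/
theorem gdAt_chart_iff (ψ : Chart M) (f : M → R4) (x : E2) :
    GdAt (fun z => f (ψ.toFun z)) x ↔ GdAt f (ψ.toFun x) := by
  constructor
  · rintro ⟨I, σ, y, rfl, hy⟩
    exact ⟨I, ψ.comp σ, y, rfl, hy⟩
  · rintro ⟨I, χ, y, hy, hden⟩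
    obtain ⟨φ, hφ, hφy⟩ := χ.exists_restrict y (U := range ψ.toFun)
      (by rw [hy]; exact ψ.range_mem_nhds x)
    have hsub : range φ.toFun ⊆ range ψ.toFun := fun q hq => (hφ hq).1
    refine ⟨I, ψ.pull φ hsub, y, ?_, ?_⟩
    · show ψ.inv (φ.toFun y) = x
      rw [hφy.eq_of_nhds, hy, ψ.left_inv]
    · simp only [Chart.comp_pull_apply]
      rwa [jet_congr (f := fun z => f (φ.toFun z)) (hφy.fun_comp f)]

end Vale.Agent.P205F
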