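import Vale.Agent.P205F.Chart.Metric

/-!
# Twisted functions under change of chart

The covector `ν` is an honest one-form, and the kernel direction `efin` scales by the jacobian.
-/

namespace Vale.Agent.P205F

open Set Function Filter
open scoped Manifold ContDiff Topology

lemma det_eq (T : E2 →L[ℝ] E2) : T.det = T (ev 0) 0 * T (ev 1) 1 - T (ev 1) 0 * T (ev 0) 1 := by
  rw [ContinuousLinearMap.det, ← LinearMap.det_toMatrix (EuclideanSpace.basisFun (Fin 2) ℝ).toBasis,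
    Matrix.det_fin_two]
  simp [LinearMap.toMatrix_apply, ev]

lemma det_ne_zero_of_injective {T : E2 →L[ℝ] E2} (h : Injective T) : T.det ≠ 0 := by
  intro h0
  exact LinearMap.bot_lt_ker_of_det_eq_zero (f := T.toLinearMap) h0 |>.ne'
    (LinearMap.ker_eq_bot.2 h)

lemma sign_mul_self_eq_abs (a : ℝ) : (SignType.sign a : ℝ) * a = |a| := by
  rcases lt_trichotomy a 0 with h | rfl | h
  · simp [sign_neg h, abs_of_neg h]
  · simp
  · simp [sign_pos h, abs_of_pos h]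

namespace Twisted

variable {M : Type*} [TopologicalSpace M] [ChartedSpace E2 M] (h : Twisted M)

lemma fderiv_change (ψ φ : Chart M) {x : E2} (hx : φ.toFun x ∈ range ψ.toFun) (v : E2) :
    fderiv ℝ (h.h φ) x v = (SignType.sign (fderiv ℝ (ψ.trans φ) x).det : ℝ) *
      fderiv ℝ (h.h ψ) (ψ.trans φ x) (fderiv ℝ (ψ.trans φ) x v) := by
  have hc : ContinuousAt (fun z => (fderiv ℝ (ψ.trans φ) z).det) x :=
    (ContinuousLinearMap.continuous_det).continuousAt.comp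
      ((ψ.trans_contDiffAt φ hx).fderiv_right (m := 0) (by simp)).continuousAt
  have hne := det_ne_zero_of_injective (ψ.trans_fderiv_injective φ hx)
  set s : ℝ := ((SignType.sign (fderiv ℝ (ψ.trans φ) x).det : SignType) : ℝ) with hsdef
  have hs : ∀ᶠ z in 𝓝 x, (SignType.sign (fderiv ℝ (ψ.trans φ) z).det : ℝ) = s := by
    rcases lt_or_gt_of_ne hne with hlt | hgt
    · filter_upwards [hc.eventually (gt_mem_nhds hlt)] with z hz
      rw [hsdef, sign_neg hz, sign_neg hlt]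
    · filter_upwards [hc.eventually (lt_mem_nhds hgt)] with z hz
      rw [hsdef, sign_pos hz, sign_pos hgt]
  have he : h.h φ =ᶠ[𝓝 x] fun z => s * h.h ψ (ψ.trans φ z) := by
    filter_upwards [hs, ψ.trans_eventually φ hx] with z h1 h2
    rw [h.compat φ ψ z (ψ.trans φ z) h2.symm, ← h1]
    rfl
  have hd := ((h.smooth ψ).differentiable infty_ne_zero).differentiableAt.hasFDerivAt.comp x
    ((ψ.trans_contDiffAt φ hx).differentiableAt infty_ne_zero).hasFDerivAt |>.const_mul s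
  rw [he.fderiv_eq]
  simp only [Function.comp_apply] at hd
  rw [hd.fderiv]
  simp

/-- Critical points can be tested in any chart. -/
lemma mem_crit_iff (ψ : Chart M) (x : E2) :
    ψ.toFun x ∈ h.crit ↔ fderiv ℝ (h.h ψ) x = 0 := by
  refine ⟨?_, fun h0 => ⟨ψ, x, rfl, h0⟩⟩
  rintro ⟨φ, y, hy, h0⟩
  ext v
  have hx : ψ.toFun x ∈ range φ.toFun := ⟨y, hy⟩
  rw [fderiv_change h φ ψ hx v, Chart.trans_eq hy.symm, h0]
  simp

variable [IsManifold (𝓡 2) ∞ M] (g : Metric M)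

lemma nu_dot_det (ψ : Chart M) (x v : E2) :
    h.nu g ψ x 0 * v 0 + h.nu g ψ x 1 * v 1 =
      (bil (gc g ψ x) v (ev 0) * h.d ψ x 1 - bil (gc g ψ x) v (ev 1) * h.d ψ x 0)
        / Real.sqrt (gc g ψ x 0 * gc g ψ x 2 - gc g ψ x 1 ^ 2) := by
  simp [nu, bil, ev]
  ring

lemma gram_change (ψ φ : Chart M) {x : E2} (hx : φ.toFun x ∈ range ψ.toFun) :
    gc g φ x 0 * gc g φ x 2 - gc g φ x 1 ^ 2 = (fderiv ℝ (ψ.trans φ) x).det ^ 2 *
      (gc g ψ (ψ.trans φ x) 0 * gc g ψ (ψ.trans φ x) 2 - gc g ψ (ψ.trans φ x) 1 ^ 2) := by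
  rw [← (bil_ev (gc g φ x)).1, ← (bil_ev (gc g φ x)).2.1, ← (bil_ev (gc g φ x)).2.2,
    bil_gc_change g ψ φ hx, bil_gc_change g ψ φ hx, bil_gc_change g ψ φ hx, det_eq]
  simp only [bil]
  ring

/-- `ν` is a one-form. -/
theorem nu_change (ψ φ : Chart M) {x : E2} (hx : φ.toFun x ∈ range ψ.toFun) (v : E2) :
    h.nu g φ x 0 * v 0 + h.nu g φ x 1 * v 1 =
      h.nu g ψ (ψ.trans φ x) 0 * fderiv ℝ (ψ.trans φ) x v 0 +
        h.nu g ψ (ψ.trans φ x) 1 * fderiv ℝ (ψ.trans φ) x v 1 := by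
  rw [nu_dot_det, nu_dot_det, gram_change g ψ φ hx, bil_gc_change g ψ φ hx,
    bil_gc_change g ψ φ hx]
  simp only [Twisted.d, pd, fderiv_change h ψ φ hx]
  have hne := det_ne_zero_of_injective (ψ.trans_fderiv_injective φ hx)
  set y := ψ.trans φ x
  set T := fderiv ℝ (ψ.trans φ) x
  have hG := (gc_pos g ψ y).2.2
  set Δ := gc g ψ y 0 * gc g ψ y 2 - gc g ψ y 1 ^ 2
  rw [Real.sqrt_mul (sq_nonneg _), Real.sqrt_sq_eq_abs, ← sign_mul_self_eq_abs,
    apply_eq_pd (h.h ψ) y (T (ev 0)), apply_eq_pd (h.h ψ) y (T (ev 1))]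
  have hsd : (SignType.sign T.det : ℝ) * (SignType.sign T.det : ℝ) = 1 := by
    rcases lt_or_gt_of_ne hne with hlt | hgt
    · simp [sign_neg hlt]
    · simp [sign_pos hgt]
  have hs0 : (SignType.sign T.det : ℝ) ≠ 0 := left_ne_zero_of_mul_eq_one hsd
  have hΔ : Real.sqrt Δ ≠ 0 := Real.sqrt_ne_zero'.2 hG
  rw [div_eq_div_iff (mul_ne_zero (mul_ne_zero hs0 hne) hΔ) hΔ]
  have key : ∀ (q : S3) (u : E2) (d0 d1 : ℝ),
      bil q u (T (ev 0)) * (T (ev 1) 0 * d0 + T (ev 1) 1 * d1) -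
        bil q u (T (ev 1)) * (T (ev 0) 0 * d0 + T (ev 0) 1 * d1) =
      T.det * (bil q u (ev 0) * d1 - bil q u (ev 1) * d0) := by
    intro q u d0 d1
    rw [det_eq]
    simp [bil, ev]
    ring
  simp only [smul_eq_mul, pd]
  linear_combination (SignType.sign T.det : ℝ) * Real.sqrt Δ *
    key (gc g ψ y) (T v) (fderiv ℝ (h.h ψ) y (ev 0)) (fderiv ℝ (h.h ψ) y (ev 1))

/-- The kernel vector of `ν` scales by the jacobian. -/
theorem efin_change (ψ φ : Chart M) {x : E2} (hx : φ.toFun x ∈ range ψ.toFun) :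
    fderiv ℝ (ψ.trans φ) x (h.efin g φ x) =
      (fderiv ℝ (ψ.trans φ) x).det • h.efin g ψ (ψ.trans φ x) := by
  have h0 := nu_change h g ψ φ hx (ev 0)
  have h1 := nu_change h g ψ φ hx (ev 1)
  simp [ev] at h0 h1
  ext i
  fin_cases i <;>
  · simp [efin, det_eq, h0, h1, ev]
    ring

lemma bil_sq_nu_change (ψ φ : Chart M) {x : E2} (hx : φ.toFun x ∈ range ψ.toFun) (v w : E2) :
    bil (sq (h.nu g φ x)) v w = bil (sq (h.nu g ψ (ψ.trans φ x)))
      (fderiv ℝ (ψ.trans φ) x v) (fderiv ℝ (ψ.trans φ) x w) := by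
  rw [bil_sq, bil_sq, nu_change h g ψ φ hx v, nu_change h g ψ φ hx w]

omit [IsManifold (𝓡 2) ∞ M] in
lemma bil_sq_d_change (ψ φ : Chart M) {x : E2} (hx : φ.toFun x ∈ range ψ.toFun) (v w : E2) :
    bil (sq (h.d φ x)) v w = bil (sq (h.d ψ (ψ.trans φ x)))
      (fderiv ℝ (ψ.trans φ) x v) (fderiv ℝ (ψ.trans φ) x w) := by
  have hd : ∀ (χ : Chart M) z u, h.d χ z 0 * u 0 + h.d χ z 1 * u 1 = fderiv ℝ (h.h χ) z u := by
    intro χ z u
    rw [apply_eq_pd, smul_eq_mul, smul_eq_mul]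
    simp [Twisted.d, mul_comm]
  rw [bil_sq, bil_sq, hd, hd, hd, hd, fderiv_change h ψ φ hx, fderiv_change h ψ φ hx]
  have hne := det_ne_zero_of_injective (ψ.trans_fderiv_injective φ hx)
  rcases lt_or_gt_of_ne hne with hlt | hgt
  · simp [sign_neg hlt]
  · simp [sign_pos hgt]

end Twisted

end Vale.Agent.P205F
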