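import Vale.Agent.P205F.Chart.Transfer

/-!
# The normal projection of an immersed plane, and normal frames on bounded sets
-/

namespace Vale.Agent.P205F

open Set Function Filter
open scoped Manifold ContDiff RealInnerProductSpace Topology

variable {f : E2 → R4}

lemma gram_pos (hi : IsImm f) (x : E2) :
    0 < met f x 0 * met f x 2 - met f x 1 ^ 2 ∧ 0 < met f x 0 := by
  have hp : ∀ v : E2, v ≠ 0 → 0 < bil (met f x) v v := fun v hv => by
    rw [bil_met, real_inner_self_eq_norm_sq]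
    have : fderiv ℝ f x v ≠ 0 := fun h => hv (hi x (h.trans (map_zero _).symm))
    positivity
  have h0 := hp (ev 0) fun h => by simpa [ev] using congrArg (fun y : E2 => y 0) h
  rw [(bil_ev _).1] at h0
  refine ⟨?_, h0⟩
  have hw : met f x 1 • ev 0 - met f x 0 • ev 1 ≠ 0 := fun h => by
    have := congrArg (fun y : E2 => y 1) h
    simp [ev] at this
    linarith
  have h := hp _ hw
  simp [bil, ev] at h
  nlinarith

lemma nrm_mem (f : E2 → R4) (x : E2) (u : R4) (v : E2) : ⟪fderiv ℝ f x v, nrm f x u⟫ = 0 :=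
  Submodule.inner_right_of_mem_orthogonal (LinearMap.mem_range_self _ v)
    (Submodule.starProjection_apply_mem _ u)

lemma nrm_self_of_orth (f : E2 → R4) (x : E2) {u : R4} (h : ∀ v, ⟪fderiv ℝ f x v, u⟫ = 0) :
    nrm f x u = u :=
  Submodule.starProjection_eq_self_iff.2 <| by
    rintro _ ⟨v, rfl⟩
    exact h v

lemma nrm_idem (f : E2 → R4) (x : E2) (u : R4) : nrm f x (nrm f x u) = nrm f x u :=
  Submodule.starProjection_eq_self_iff.2 (Submodule.starProjection_apply_mem _ u)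

lemma inner_nrm (f : E2 → R4) (x : E2) (u v : R4) : ⟪u, nrm f x v⟫ = ⟪nrm f x u, v⟫ :=
  (Submodule.inner_starProjection_left_eq_right _ u v).symm

/-- The normal projection by the Gram formula. -/
lemma nrm_formula (hi : IsImm f) (x : E2) (u : R4) :
    nrm f x u = u
      - ((met f x 2 * ⟪pd 0 f x, u⟫ - met f x 1 * ⟪pd 1 f x, u⟫)
          / (met f x 0 * met f x 2 - met f x 1 ^ 2)) • pd 0 f x
      - ((met f x 0 * ⟪pd 1 f x, u⟫ - met f x 1 * ⟪pd 0 f x, u⟫)
          / (met f x 0 * met f x 2 - met f x 1 ^ 2)) • pd 1 f x := by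
  have hΔ := (gram_pos hi x).1.ne'
  set Δ := met f x 0 * met f x 2 - met f x 1 ^ 2 with hdef
  set c0 := (met f x 2 * ⟪pd 0 f x, u⟫ - met f x 1 * ⟪pd 1 f x, u⟫) / Δ with hc0
  set c1 := (met f x 0 * ⟪pd 1 f x, u⟫ - met f x 1 * ⟪pd 0 f x, u⟫) / Δ with hc1
  refine Submodule.eq_starProjection_of_mem_orthogonal'
    (K := (LinearMap.range (fderiv ℝ f x).toLinearMap)ᗮ) (z := c0 • pd 0 f x + c1 • pd 1 f x)
    ?_ ?_ ?_
  · rintro _ ⟨v, rfl⟩
    show ⟪fderiv ℝ f x v, _⟫ = 0
    have hm : met f x 0 = ⟪pd 0 f x, pd 0 f x⟫ ∧ met f x 1 = ⟪pd 0 f x, pd 1 f x⟫ ∧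
        met f x 2 = ⟪pd 1 f x, pd 1 f x⟫ := ⟨rfl, rfl, rfl⟩
    have h0 : ⟪pd 0 f x, u⟫ - c0 * met f x 0 - c1 * met f x 1 = 0 := by
      rw [hc0, hc1]; field_simp; ring
    have h1 : ⟪pd 1 f x, u⟫ - c0 * met f x 1 - c1 * met f x 2 = 0 := by
      rw [hc0, hc1]; field_simp; ring
    rw [hm.1, hm.2.1] at h0
    rw [hm.2.1, hm.2.2] at h1
    rw [apply_eq_pd f x v]
    simp only [inner_add_left, inner_sub_right, real_inner_smul_left, real_inner_smul_right]
    rw [real_inner_comm (pd 0 f x) (pd 1 f x)]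
    linear_combination v 0 * h0 + v 1 * h1
  · refine Submodule.le_orthogonal_orthogonal _ (Submodule.add_mem _
      (Submodule.smul_mem _ _ (LinearMap.mem_range_self _ (ev 0)))
      (Submodule.smul_mem _ _ (LinearMap.mem_range_self _ (ev 1))))
  · abel

/-- The normal projection as an operator. -/
noncomputable def nrmL (f : E2 → R4) (x : E2) : R4 →L[ℝ] R4 :=
  (LinearMap.range (fderiv ℝ f x).toLinearMap)ᗮ.starProjection

lemma nrmL_apply (f : E2 → R4) (x : E2) (u : R4) : nrmL f x u = nrm f x u := rfl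

lemma contDiff_pd {X : Type*} [NormedAddCommGroup X] [NormedSpace ℝ X] {g : E2 → X}
    (hg : ContDiff ℝ ∞ g) (i : Fin 2) : ContDiff ℝ ∞ (pd i g) :=
  ((contDiff_infty_iff_fderiv.1 hg).2).clm_apply contDiff_const

lemma contDiff_met (hf : ContDiff ℝ ∞ f) (k : Fin 3) : ContDiff ℝ ∞ fun x => met f x k := by
  have h := contDiff_pd hf
  fin_cases k
  · exact (h 0).inner ℝ (h 0)
  · exact (h 0).inner ℝ (h 1)
  · exact (h 1).inner ℝ (h 1)

/-- The normal projection of an immersion is smooth. -/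
lemma contDiff_nrmL (hf : ContDiff ℝ ∞ f) (hi : IsImm f) : ContDiff ℝ ∞ (nrmL f) := by
  rw [contDiff_clm_apply_iff]
  intro u
  simp only [nrmL_apply, nrm_formula hi]
  have h := contDiff_pd hf
  have hm := contDiff_met hf
  have hin : ∀ i, ContDiff ℝ ∞ fun x => ⟪pd i f x, u⟫ := fun i => (h i).inner ℝ contDiff_const
  have hΔ := ((hm 0).mul (hm 2)).sub ((hm 1).pow 2)
  exact (contDiff_const.sub ((((((hm 2).mul (hin 0)).sub ((hm 1).mul (hin 1))).div hΔ
      fun x => (gram_pos hi x).1.ne')).smul (h 0))).sub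
    (((((hm 0).mul (hin 1)).sub ((hm 1).mul (hin 0))).div hΔ
      fun x => (gram_pos hi x).1.ne').smul (h 1))

/-- Products of normal projections along the segment from the origin. -/
noncomputable def chain (f : E2 → R4) (N : ℕ) : ℕ → E2 → R4 →L[ℝ] R4
  | 0, _ => ContinuousLinearMap.id ℝ R4
  | k + 1, x => (nrmL f ((((k + 1 : ℕ) : ℝ) / N) • x)).comp (chain f N k x)

lemma contDiff_chain (hf : ContDiff ℝ ∞ f) (hi : IsImm f) (N k : ℕ) :
    ContDiff ℝ ∞ (chain f N k) := by
  induction k with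
  | zero => exact contDiff_const
  | succ k ih => exact ((contDiff_nrmL hf hi).comp (contDiff_id.const_smul _)).clm_comp ih

lemma exists_chain (hf : ContDiff ℝ ∞ f) (hi : IsImm f) (R : ℝ) :
    ∃ A : E2 → R4 →L[ℝ] R4, ContDiff ℝ ∞ A ∧ ∀ x ∈ Metric.closedBall (0 : E2) R,
      ∀ w, nrm f 0 w = w → w ≠ 0 → A x w ≠ 0 ∧ nrm f x (A x w) = A x w := by
  obtain ⟨δ, hδ, hδu⟩ := Metric.uniformContinuousOn_iff.1
    ((isCompact_closedBall (0 : E2) R).uniformContinuousOn_of_continuous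
      (contDiff_nrmL hf hi).continuous.continuousOn) 1 one_pos
  obtain ⟨N, hN⟩ := exists_nat_gt (max (R / δ) 1)
  have hN0 : (0 : ℝ) < N := lt_trans one_pos ((le_max_right _ _).trans_lt hN)
  refine ⟨chain f N N, contDiff_chain hf hi N N, fun x hx w hw hw0 => ?_⟩
  have hx' : ‖x‖ ≤ R := by simpa using hx
  have hmem : ∀ k : ℕ, k ≤ N → ((k : ℝ) / N) • x ∈ Metric.closedBall (0 : E2) R := fun k hk => by
    rw [mem_closedBall_zero_iff, norm_smul, Real.norm_eq_abs, abs_of_nonneg (by positivity)]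
    exact (mul_le_of_le_one_left (norm_nonneg _)
      ((div_le_one hN0).2 (by exact_mod_cast hk))).trans hx'
  have key : ∀ k : ℕ, k ≤ N → chain f N k x w ≠ 0 ∧
      nrm f (((k : ℝ) / N) • x) (chain f N k x w) = chain f N k x w := by
    intro k
    induction k with
    | zero => intro _; simpa [chain] using ⟨hw0, hw⟩
    | succ k ih =>
      intro hk
      obtain ⟨hne, hfix⟩ := ih (by omega)
      refine ⟨?_, nrm_idem f _ _⟩
      intro h0
      have hdist : dist (((((k + 1 : ℕ) : ℝ)) / N) • x) (((k : ℝ) / N) • x) < δ := by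
        rw [dist_eq_norm, ← sub_smul, norm_smul, Nat.cast_succ, ← sub_div, add_sub_cancel_left,
          Real.norm_eq_abs, abs_of_pos (by positivity : (0 : ℝ) < 1 / N)]
        have : R / δ < N := (le_max_left _ _).trans_lt hN
        rw [div_lt_iff₀ hδ] at this
        rw [one_div, inv_mul_lt_iff₀ hN0]
        linarith
      have hlt := hδu _ (hmem (k + 1) hk) _ (hmem k (by omega)) hdist
      rw [dist_eq_norm] at hlt
      have := (nrmL f ((((k + 1 : ℕ) : ℝ) / N) • x) - nrmL f (((k : ℝ) / N) • x)).le_opNorm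
        (chain f N k x w)
      simp only [chain, ContinuousLinearMap.comp_apply] at h0
      rw [sub_apply, h0, nrmL_apply, hfix, zero_sub, norm_neg] at this
      nlinarith [norm_pos_iff.2 hne]
  have h := key N le_rfl
  rwa [div_self hN0.ne', one_smul] at h

/-- An orthonormal frame of the normal planes on a ball, smooth on the whole plane. -/
theorem exists_normal_frame (hf : ContDiff ℝ ∞ f) (hi : IsImm f) (R : ℝ) :
    ∃ n m : E2 → R4, ContDiff ℝ ∞ n ∧ ContDiff ℝ ∞ m ∧ ∀ x ∈ Metric.closedBall (0 : E2) R,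
      ‖n x‖ = 1 ∧ ‖m x‖ = 1 ∧ ⟪n x, m x⟫ = 0 ∧ nrm f x (n x) = n x ∧ nrm f x (m x) = m x ∧
      ∀ u, nrm f x u = ⟪n x, u⟫ • n x + ⟪m x, u⟫ • m x := by
  let R0 : ℝ := max R 0
  obtain ⟨A, hA, hAp⟩ := exists_chain hf hi (R0 + 2)
  have hdim : ∀ x, Module.finrank ℝ (LinearMap.range (fderiv ℝ f x).toLinearMap)ᗮ = 2 := by
    intro x
    have h1 := LinearMap.finrank_range_of_inj (f := (fderiv ℝ f x).toLinearMap) (hi x)
    have h2 := (LinearMap.range (fderiv ℝ f x).toLinearMap).finrank_add_finrank_orthogonal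
    have h3 : Module.finrank ℝ R4 = 4 := finrank_euclideanSpace_fin
    have h4 : Module.finrank ℝ E2 = 2 := finrank_euclideanSpace_fin
    omega
  let B := Module.finBasisOfFinrankEq ℝ _ (hdim 0)
  let v : E2 → R4 := fun x => A x (B 0 : R4)
  let w : E2 → R4 := fun x => A x (B 1 : R4)
  have hv : ContDiff ℝ ∞ v := hA.clm_apply contDiff_const
  have hw : ContDiff ℝ ∞ w := hA.clm_apply contDiff_const
  have hcomb : ∀ x ∈ Metric.closedBall (0 : E2) (R0 + 2), ∀ s t : ℝ, (s, t) ≠ 0 →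
      s • v x + t • w x ≠ 0 ∧ nrm f x (s • v x + t • w x) = s • v x + t • w x := by
    intro x hx s t hst
    have hne : ((s • B 0 + t • B 1 : (LinearMap.range (fderiv ℝ f 0).toLinearMap)ᗮ) : R4) ≠ 0 := by
      intro h
      apply hst
      have h2 := Fintype.linearIndependent_iff.1 B.linearIndependent ![s, t]
        (by simpa [Fin.sum_univ_two] using Subtype.ext (a1 := s • B 0 + t • B 1) (a2 := 0) h)
      exact Prod.ext (h2 0) (h2 1)
    have h := hAp x hx _ (Submodule.starProjection_eq_self_iff.2 (Subtype.mem _)) hne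
    simpa [v, w] using h
  let n1 : E2 → R4 := fun x => ‖v x‖⁻¹ • v x
  let m0 : E2 → R4 := fun x => w x - ⟪n1 x, w x⟫ • n1 x
  let m1 : E2 → R4 := fun x => ‖m0 x‖⁻¹ • m0 x
  have hvne : ∀ x ∈ Metric.closedBall (0 : E2) (R0 + 2), v x ≠ 0 := fun x hx => by
    simpa using (hcomb x hx 1 0 (by simp)).1
  have hmne : ∀ x ∈ Metric.closedBall (0 : E2) (R0 + 2), m0 x ≠ 0 := fun x hx => by
    have h := (hcomb x hx (-(⟪n1 x, w x⟫ * ‖v x‖⁻¹)) 1 (by simp)).1
    intro h0
    apply h
    rw [← h0]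
    simp only [m0, n1, one_smul, neg_smul, smul_smul]
    abel
  have hn1 : ∀ x ∈ Metric.closedBall (0 : E2) (R0 + 2), ContDiffAt ℝ ∞ n1 x := fun x hx =>
    ((hv.contDiffAt.norm ℝ (hvne x hx)).inv (norm_ne_zero_iff.2 (hvne x hx))).smul hv.contDiffAt
  have hm1 : ∀ x ∈ Metric.closedBall (0 : E2) (R0 + 2), ContDiffAt ℝ ∞ m1 x := fun x hx => by
    have h0 : ContDiffAt ℝ ∞ m0 x :=
      hw.contDiffAt.sub (((hn1 x hx).inner ℝ hw.contDiffAt).smul (hn1 x hx))
    exact ((h0.norm ℝ (hmne x hx)).inv (norm_ne_zero_iff.2 (hmne x hx))).smul h0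
  let b : ContDiffBump (0 : E2) :=
    ⟨R0 + 1, R0 + 2, by have : (0 : ℝ) ≤ R0 := le_max_right R 0; positivity, by linarith⟩
  have hsm : ∀ g : E2 → R4, (∀ x ∈ Metric.closedBall (0 : E2) (R0 + 2), ContDiffAt ℝ ∞ g x) →
      ContDiff ℝ ∞ fun x => b x • g x := by
    intro g hg
    refine contDiff_iff_contDiffAt.2 fun x => ?_
    by_cases hx : x ∈ Metric.closedBall (0 : E2) (R0 + 2)
    · exact b.contDiff.contDiffAt.smul (hg x hx)
    · have hx' : x ∉ tsupport b := by rw [b.tsupport_eq]; exact hx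
      refine (contDiffAt_const (c := (0 : R4))).congr_of_eventuallyEq ?_
      filter_upwards [notMem_tsupport_iff_eventuallyEq.1 hx'] with y hy
      simp [hy]
  refine ⟨fun x => b x • n1 x, fun x => b x • m1 x, hsm n1 hn1, hsm m1 hm1, fun x hx => ?_⟩
  have hxn : ‖x‖ ≤ R := by simpa using hx
  have hR0 : R ≤ R0 := le_max_left R 0
  have hb : b x = 1 := b.one_of_mem_closedBall (by
    rw [mem_closedBall_zero_iff]; show ‖x‖ ≤ R0 + 1; linarith)
  have hxb : x ∈ Metric.closedBall (0 : E2) (R0 + 2) := by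
    rw [mem_closedBall_zero_iff]; linarith
  simp only [hb, one_smul]
  have e1 : ‖n1 x‖ = 1 := by
    simp [n1, norm_smul, inv_mul_cancel₀ (norm_ne_zero_iff.2 (hvne x hxb))]
  have e2 : ‖m1 x‖ = 1 := by
    simp [m1, norm_smul, inv_mul_cancel₀ (norm_ne_zero_iff.2 (hmne x hxb))]
  have e3 : ⟪n1 x, m1 x⟫ = 0 := by
    simp [m1, m0, real_inner_smul_right, inner_sub_right, e1]
  have hvfix : nrm f x (v x) = v x := by simpa using (hcomb x hxb 1 0 (by simp)).2
  have hwfix : nrm f x (w x) = w x := by simpa using (hcomb x hxb 0 1 (by simp)).2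
  have e4 : nrm f x (n1 x) = n1 x := by
    simp only [← nrmL_apply] at hvfix ⊢
    simp [n1, hvfix]
  have e5 : nrm f x (m1 x) = m1 x := by
    simp only [← nrmL_apply] at hwfix e4 ⊢
    simp [m1, m0, hwfix, e4]
  refine ⟨e1, e2, e3, e4, e5, fun u => ?_⟩
  let P := (LinearMap.range (fderiv ℝ f x).toLinearMap)ᗮ
  have hnP : n1 x ∈ P := e4 ▸ Submodule.starProjection_apply_mem _ _
  have hmP : m1 x ∈ P := e5 ▸ Submodule.starProjection_apply_mem _ _
  have hon : Orthonormal ℝ ![n1 x, m1 x] := by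
    refine orthonormal_iff_ite.2 fun i j => ?_
    fin_cases i <;> fin_cases j <;> simp [e1, e2, e3, real_inner_comm (n1 x) (m1 x)]
  have hspan : Submodule.span ℝ (range ![n1 x, m1 x]) = P := by
    refine Submodule.eq_of_le_of_finrank_eq (Submodule.span_le.2 ?_) ?_
    · rintro _ ⟨i, rfl⟩; fin_cases i <;> assumption
    · rw [finrank_span_eq_card hon.linearIndependent, hdim x]; rfl
  have hmem : nrm f x u ∈ Submodule.span ℝ (range ![n1 x, m1 x]) :=
    hspan.symm ▸ Submodule.starProjection_apply_mem P u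
  obtain ⟨c, hc⟩ := (Submodule.mem_span_range_iff_exists_fun ℝ).1 hmem
  rw [Fin.sum_univ_two] at hc
  simp only [Matrix.cons_val_zero, Matrix.cons_val_one] at hc
  have hn : ⟪n1 x, u⟫ = c 0 := by
    have := inner_nrm f x (n1 x) u
    rw [e4, ← hc] at this
    simpa [inner_add_right, real_inner_smul_right, e1, e3] using this.symm
  have hm : ⟪m1 x, u⟫ = c 1 := by
    have := inner_nrm f x (m1 x) u
    rw [e5, ← hc] at this
    simpa [inner_add_right, real_inner_smul_right, e2, e3, real_inner_comm (n1 x) (m1 x)]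
      using this.symm
  rw [hn, hm, hc]

end Vale.Agent.P205F
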