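import Vale.Agent.P205F.Chart.Basic

/-!
# Change of chart
-/

namespace Vale.Agent.P205F

open Set Function Filter
open scoped Manifold ContDiff RealInnerProductSpace Topology

/-! ### Symmetric two-tensors as bilinear forms -/

/-- The bilinear form with components `q`. -/
def bil (q : S3) (v w : E2) : ℝ :=
  q 0 * (v 0 * w 0) + q 1 * (v 0 * w 1 + v 1 * w 0) + q 2 * (v 1 * w 1)

lemma vec_eq (v : E2) : v = v 0 • ev 0 + v 1 • ev 1 := by
  ext i
  fin_cases i <;> simp [ev]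

lemma apply_eq_pd {X : Type*} [NormedAddCommGroup X] [NormedSpace ℝ X] (f : E2 → X) (x v : E2) :
    fderiv ℝ f x v = v 0 • pd 0 f x + v 1 • pd 1 f x := by
  conv_lhs => rw [vec_eq v]
  simp [pd]

lemma bil_ev (q : S3) : bil q (ev 0) (ev 0) = q 0 ∧ bil q (ev 0) (ev 1) = q 1 ∧
    bil q (ev 1) (ev 1) = q 2 := by
  simp [bil, ev]

lemma bil_inj {q q' : S3} (h : ∀ v w, bil q v w = bil q' v w) : q = q' := by
  funext i
  fin_cases i
  · simpa [(bil_ev q).1, (bil_ev q').1] using h (ev 0) (ev 0)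
  · simpa [(bil_ev q).2.1, (bil_ev q').2.1] using h (ev 0) (ev 1)
  · simpa [(bil_ev q).2.2, (bil_ev q').2.2] using h (ev 1) (ev 1)

lemma bil_add (q q' : S3) (v w : E2) : bil (q + q') v w = bil q v w + bil q' v w := by
  simp [bil]; ring

lemma bil_smul (c : ℝ) (q : S3) (v w : E2) : bil (c • q) v w = c * bil q v w := by
  simp [bil]; ring

lemma bil_sq (p : Fin 2 → ℝ) (v w : E2) :
    bil (sq p) v w = (p 0 * v 0 + p 1 * v 1) * (p 0 * w 0 + p 1 * w 1) := by
  simp [bil, sq]; ring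

lemma bil_met (f : E2 → R4) (x v w : E2) :
    bil (met f x) v w = ⟪fderiv ℝ f x v, fderiv ℝ f x w⟫ := by
  rw [apply_eq_pd f x v, apply_eq_pd f x w]
  simp only [inner_add_left, inner_add_right, real_inner_smul_left, real_inner_smul_right, bil, met,
    Matrix.cons_val_zero, Matrix.cons_val_one, Matrix.cons_val_two, Matrix.head_cons,
    Matrix.tail_cons, real_inner_comm (pd 1 f x) (pd 0 f x)]
  ring

/-! ### Composition with a map of the plane -/

lemma fderiv_comp_plane {X : Type*} [NormedAddCommGroup X] [NormedSpace ℝ X] {F : E2 → X}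
    {τ : E2 → E2} {x : E2} (hF : DifferentiableAt ℝ F (τ x)) (hτ : DifferentiableAt ℝ τ x) :
    fderiv ℝ (fun z => F (τ z)) x = (fderiv ℝ F (τ x)).comp (fderiv ℝ τ x) :=
  fderiv_comp x hF hτ

lemma bil_met_comp {F : E2 → R4} {τ : E2 → E2} {x : E2} (hF : DifferentiableAt ℝ F (τ x))
    (hτ : DifferentiableAt ℝ τ x) (v w : E2) :
    bil (met (fun z => F (τ z)) x) v w =
      bil (met F (τ x)) (fderiv ℝ τ x v) (fderiv ℝ τ x w) := by
  rw [bil_met, bil_met, fderiv_comp_plane hF hτ]; rfl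

lemma nrm_comp {F : E2 → R4} {τ : E2 → E2} {x : E2} (hF : DifferentiableAt ℝ F (τ x))
    (hτ : DifferentiableAt ℝ τ x) (hs : Surjective (fderiv ℝ τ x)) (u : R4) :
    nrm (fun z => F (τ z)) x u = nrm F (τ x) u := by
  have h : LinearMap.range (fderiv ℝ (fun z => F (τ z)) x).toLinearMap =
      LinearMap.range (fderiv ℝ F (τ x)).toLinearMap := by
    rw [fderiv_comp_plane hF hτ, ContinuousLinearMap.toLinearMap_comp, LinearMap.range_comp,
      LinearMap.range_eq_top.2 hs, Submodule.map_top]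
  simp only [nrm, h]

lemma nrm_apply_range (F : E2 → R4) (y v : E2) : nrm F y (fderiv ℝ F y v) = 0 :=
  (Submodule.starProjection_apply_eq_zero_iff _).2 <|
    Submodule.le_orthogonal_orthogonal _ ⟨v, rfl⟩

/-- The second fundamental form is tensorial. -/
lemma II_comp {F : E2 → R4} {τ : E2 → E2} {x : E2} (hF : ContDiffAt ℝ ∞ F (τ x))
    (hτ : ContDiffAt ℝ ∞ τ x) (hs : Surjective (fderiv ℝ τ x)) (v : E2) :
    II (fun z => F (τ z)) x v = II F (τ x) (fderiv ℝ τ x v) := by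
  have h2 : (2 : WithTop ℕ∞) ≤ ∞ := WithTop.coe_le_coe.2 (le_top : (2 : ℕ∞) ≤ ⊤)
  have hne : (2 : WithTop ℕ∞) ≠ 0 := by simp
  have hF2 := hF.of_le h2
  have hτ2 := hτ.of_le h2
  have hD : DifferentiableAt ℝ (fderiv ℝ F) (τ x) :=
    (hF2.fderiv_right (m := 1) le_rfl).differentiableAt one_ne_zero
  have hDτ : DifferentiableAt ℝ (fderiv ℝ τ) x :=
    (hτ2.fderiv_right (m := 1) le_rfl).differentiableAt one_ne_zero
  have hev : (fun z => fderiv ℝ (fun y => F (τ y)) z v) =ᶠ[𝓝 x]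
      fun z => fderiv ℝ F (τ z) (fderiv ℝ τ z v) := by
    have hFd : ∀ᶠ z in 𝓝 x, DifferentiableAt ℝ F (τ z) :=
      hτ.continuousAt.eventually ((hF2.eventually (by simp)).mono fun y hy =>
        hy.differentiableAt hne)
    filter_upwards [hFd, (hτ2.eventually (by simp)).mono fun y hy => hy.differentiableAt hne]
      with z h1 h3
    rw [fderiv_comp_plane h1 h3]; rfl
  have hl := (hD.hasFDerivAt.comp x ((hτ2.differentiableAt hne).hasFDerivAt)).clm_apply
    (hDτ.hasFDerivAt.clm_apply (hasFDerivAt_const v x))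
  have hr := hD.hasFDerivAt.clm_apply (hasFDerivAt_const (fderiv ℝ τ x v) (τ x))
  simp only [Function.comp_apply] at hl
  rw [II, II, hev.fderiv_eq, hl.fderiv, hr.fderiv,
    nrm_comp (hF2.differentiableAt hne) (hτ2.differentiableAt hne) hs]
  simp only [nrm, add_apply, ContinuousLinearMap.comp_apply, ContinuousLinearMap.flip_apply,
    ContinuousLinearMap.comp_zero, map_add, zero_add]
  rw [← nrm, nrm_apply_range]
  simp

/-! ### Transition maps -/

namespace Chart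

variable {M : Type*} [TopologicalSpace M] [ChartedSpace E2 M]

/-- The transition map from `φ` to `ψ`. -/
def trans (ψ φ : Chart M) : E2 → E2 := fun z => ψ.inv (φ.toFun z)

lemma trans_eq {ψ φ : Chart M} {x y : E2} (h : φ.toFun x = ψ.toFun y) : ψ.trans φ x = y := by
  simp [trans, h, ψ.left_inv]

lemma trans_right (ψ φ : Chart M) {x : E2} (h : φ.toFun x ∈ range ψ.toFun) :
    ψ.toFun (ψ.trans φ x) = φ.toFun x :=
  ψ.right_inv h

lemma trans_eventually (ψ φ : Chart M) {x : E2} (h : φ.toFun x ∈ range ψ.toFun) :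
    ∀ᶠ z in 𝓝 x, ψ.toFun (ψ.trans φ z) = φ.toFun z :=
  (φ.continuous.continuousAt.eventually (ψ.isOpen_range.mem_nhds h)).mono fun _ hz =>
    ψ.trans_right φ hz

lemma trans_contDiffAt (ψ φ : Chart M) {x : E2} (h : φ.toFun x ∈ range ψ.toFun) :
    ContDiffAt ℝ ∞ (ψ.trans φ) x :=
  contMDiffAt_iff_contDiffAt.1 ((ψ.contMDiffAt_inv h).comp x φ.smooth.contMDiffAt)

lemma comp_trans_eventuallyEq {X : Type*} (ψ φ : Chart M) (f : M → X) {x : E2}
    (h : φ.toFun x ∈ range ψ.toFun) :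
    (fun z => f (φ.toFun z)) =ᶠ[𝓝 x] fun z => (fun y => f (ψ.toFun y)) (ψ.trans φ z) :=
  (ψ.trans_eventually φ h).mono fun _ hz => congrArg f hz.symm

lemma trans_fderiv_comp (ψ φ : Chart M) {x y : E2} (h : φ.toFun x = ψ.toFun y) :
    (fderiv ℝ (φ.trans ψ) y).comp (fderiv ℝ (ψ.trans φ) x) = ContinuousLinearMap.id ℝ E2 := by
  have h1 : φ.toFun x ∈ range ψ.toFun := ⟨y, h.symm⟩
  have h2 : ψ.toFun y ∈ range φ.toFun := ⟨x, h⟩
  have hid : (fun z => φ.trans ψ (ψ.trans φ z)) =ᶠ[𝓝 x] id := by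
    filter_upwards [ψ.trans_eventually φ h1] with z hz
    exact trans_eq hz
  have hy : ψ.trans φ x = y := trans_eq h
  have hc := fderiv_comp_plane (F := φ.trans ψ) (τ := ψ.trans φ) (x := x)
    (by rw [hy]; exact (φ.trans_contDiffAt ψ h2).differentiableAt infty_ne_zero)
    ((ψ.trans_contDiffAt φ h1).differentiableAt infty_ne_zero)
  rw [hid.fderiv_eq, fderiv_id, hy] at hc
  exact hc.symm

lemma trans_fderiv_injective (ψ φ : Chart M) {x : E2} (h : φ.toFun x ∈ range ψ.toFun) :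
    Injective (fderiv ℝ (ψ.trans φ) x) :=
  LeftInverse.injective fun v =>
    DFunLike.congr_fun (trans_fderiv_comp ψ φ (ψ.trans_right φ h).symm) v

lemma trans_fderiv_surjective (ψ φ : Chart M) {x : E2} (h : φ.toFun x ∈ range ψ.toFun) :
    Surjective (fderiv ℝ (ψ.trans φ) x) :=
  LinearMap.injective_iff_surjective.1 (ψ.trans_fderiv_injective φ h)

end Chart

section change

variable {M : Type*} [TopologicalSpace M] [ChartedSpace E2 M]

lemma jet_change {N : ℕ} (ψ φ : Chart M) (f : M → R4) {x : E2}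
    (h : φ.toFun x ∈ range ψ.toFun) :
    jet N (fun z => f (φ.toFun z)) x =
      jet N (fun z => (fun y => f (ψ.toFun y)) (ψ.trans φ z)) x :=
  jet_congr (ψ.comp_trans_eventuallyEq φ f h)

lemma fderiv_change {X : Type*} [NormedAddCommGroup X] [NormedSpace ℝ X] (ψ φ : Chart M)
    {f : M → X} (hf : ContMDiff (𝓡 2) 𝓘(ℝ, X) ∞ f) {x : E2} (h : φ.toFun x ∈ range ψ.toFun) :
    fderiv ℝ (fun z => f (φ.toFun z)) x =
      (fderiv ℝ (fun z => f (ψ.toFun z)) (ψ.trans φ x)).comp (fderiv ℝ (ψ.trans φ) x) := by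
  rw [(ψ.comp_trans_eventuallyEq φ f h).fderiv_eq]
  exact fderiv_comp_plane ((ψ.contDiff_comp hf).differentiable infty_ne_zero).differentiableAt
    ((ψ.trans_contDiffAt φ h).differentiableAt infty_ne_zero)

lemma bil_met_change (ψ φ : Chart M) {f : M → R4} (hf : ContMDiff (𝓡 2) (𝓡 4) ∞ f) {x : E2}
    (h : φ.toFun x ∈ range ψ.toFun) (v w : E2) :
    bil (met (fun z => f (φ.toFun z)) x) v w = bil (met (fun z => f (ψ.toFun z)) (ψ.trans φ x))
      (fderiv ℝ (ψ.trans φ) x v) (fderiv ℝ (ψ.trans φ) x w) := by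
  rw [bil_met, bil_met, fderiv_change ψ φ hf h]; rfl

lemma II_congr {f g : E2 → R4} {x : E2} (h : f =ᶠ[𝓝 x] g) (v : E2) : II f x v = II g x v := by
  have h2 : (fun z => fderiv ℝ f z v) =ᶠ[𝓝 x] fun z => fderiv ℝ g z v :=
    (h.fderiv (𝕜 := ℝ)).mono fun z hz => by simp [hz]
  simp only [II, nrm, h.fderiv_eq, h2.fderiv_eq]

lemma II_change (ψ φ : Chart M) {f : M → R4} (hf : ContMDiff (𝓡 2) (𝓡 4) ∞ f) {x : E2}
    (h : φ.toFun x ∈ range ψ.toFun) (v : E2) :
    II (fun z => f (φ.toFun z)) x v =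
      II (fun z => f (ψ.toFun z)) (ψ.trans φ x) (fderiv ℝ (ψ.trans φ) x v) := by
  rw [II_congr (ψ.comp_trans_eventuallyEq φ f h)]
  exact II_comp (ψ.contDiff_comp hf).contDiffAt (ψ.trans_contDiffAt φ h)
    (ψ.trans_fderiv_surjective φ h) v

lemma nrm_change (ψ φ : Chart M) {f : M → R4} (hf : ContMDiff (𝓡 2) (𝓡 4) ∞ f) {x : E2}
    (h : φ.toFun x ∈ range ψ.toFun) (u : R4) :
    nrm (fun z => f (φ.toFun z)) x u = nrm (fun z => f (ψ.toFun z)) (ψ.trans φ x) u := by
  have he : nrm (fun z => f (φ.toFun z)) x u =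
      nrm (fun z => (fun y => f (ψ.toFun y)) (ψ.trans φ z)) x u := by
    simp only [nrm, (ψ.comp_trans_eventuallyEq φ f h).fderiv_eq]
  rw [he]
  exact nrm_comp ((ψ.contDiff_comp hf).differentiable infty_ne_zero).differentiableAt
    ((ψ.trans_contDiffAt φ h).differentiableAt infty_ne_zero) (ψ.trans_fderiv_surjective φ h) u

lemma dcoord_apply (ψ φ : Chart M) {x : E2} (h : φ.toFun x ∈ range ψ.toFun) (v : E2) :
    dcoord ψ φ x 0 * v 0 + dcoord ψ φ x 1 * v 1 = fderiv ℝ (ψ.trans φ) x v 0 := by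
  have hd : HasFDerivAt (fun z => ψ.inv (φ.toFun z) 0)
      ((EuclideanSpace.proj (0 : Fin 2) : E2 →L[ℝ] ℝ).comp (fderiv ℝ (ψ.trans φ) x)) x :=
    (EuclideanSpace.proj (0 : Fin 2) : E2 →L[ℝ] ℝ).hasFDerivAt.comp x
      ((ψ.trans_contDiffAt φ h).differentiableAt infty_ne_zero).hasFDerivAt
  simp only [dcoord, if_pos h]
  rw [mul_comm, mul_comm _ (v 1), ← smul_eq_mul, ← smul_eq_mul, ← apply_eq_pd, hd.fderiv]
  rfl

end change

end Vale.Agent.P205F
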