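import Vale.Agent.P205F.Chart.Transfer

/-!
# A metric in charts
-/

namespace Vale.Agent.P205F

open Set Function Filter Bundle
open scoped Manifold ContDiff RealInnerProductSpace Topology

variable {M : Type*} [TopologicalSpace M] [ChartedSpace E2 M]

namespace Chart

/-- The differential of a chart is injective. -/
lemma mfderiv_injective (ψ : Chart M) (x : E2) :
    Injective (mfderiv (𝓡 2) (𝓡 2) ψ.toFun x) := by
  have h := mfderiv_comp x ((ψ.contMDiffAt_inv ⟨x, rfl⟩).mdifferentiableAt infty_ne_zero)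
    (ψ.smooth.contMDiffAt.mdifferentiableAt infty_ne_zero)
  have hid : ψ.inv ∘ ψ.toFun = id := funext ψ.left_inv
  rw [hid, mfderiv_id] at h
  intro v w hvw
  exact (DFunLike.congr_fun h v).trans <| (congrArg (mfderiv (𝓡 2) (𝓡 2) ψ.inv (ψ.toFun x)) hvw).trans
    (DFunLike.congr_fun h w).symm

/-- The differential of a chart is onto. -/
lemma mfderiv_surjective (ψ : Chart M) (x : E2) :
    Surjective (mfderiv (𝓡 2) (𝓡 2) ψ.toFun x) := by
  have hid : ψ.toFun ∘ ψ.inv =ᶠ[𝓝 (ψ.toFun x)] id := by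
    filter_upwards [ψ.range_mem_nhds x] with q hq
    exact ψ.right_inv hq
  have h := mfderiv_comp (ψ.toFun x)
    (ψ.smooth.contMDiffAt.mdifferentiableAt infty_ne_zero)
    ((ψ.contMDiffAt_inv ⟨x, rfl⟩).mdifferentiableAt infty_ne_zero)
  rw [hid.mfderiv_eq, mfderiv_id, ψ.left_inv] at h
  exact fun v => ⟨mfderiv (𝓡 2) (𝓡 2) ψ.inv (ψ.toFun x) v, (DFunLike.congr_fun h v).symm⟩

lemma mfderiv_trans (ψ φ : Chart M) {x : E2} (h : φ.toFun x ∈ range ψ.toFun) (v : E2) :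
    mfderiv (𝓡 2) (𝓡 2) φ.toFun x v =
      mfderiv (𝓡 2) (𝓡 2) ψ.toFun (ψ.trans φ x) (fderiv ℝ (ψ.trans φ) x v) := by
  have he : ψ.toFun ∘ ψ.trans φ =ᶠ[𝓝 x] φ.toFun := ψ.trans_eventually φ h
  rw [← he.mfderiv_eq, mfderiv_comp x (ψ.smooth.contMDiffAt.mdifferentiableAt infty_ne_zero)
    (((ψ.trans_contDiffAt φ h).differentiableAt infty_ne_zero).mdifferentiableAt),
    mfderiv_eq_fderiv]
  rfl

/-- The differential of a map on the surface, in a chart. -/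
lemma mfderiv_apply {X : Type*} [NormedAddCommGroup X] [NormedSpace ℝ X] (ψ : Chart M) {f : M → X}
    (hf : ContMDiff (𝓡 2) 𝓘(ℝ, X) ∞ f) (x : E2) (v : E2) :
    mfderiv (𝓡 2) 𝓘(ℝ, X) f (ψ.toFun x) (mfderiv (𝓡 2) (𝓡 2) ψ.toFun x v) =
      fderiv ℝ (fun z => f (ψ.toFun z)) x v := by
  have h := mfderiv_comp x (hf.contMDiffAt.mdifferentiableAt infty_ne_zero)
    (ψ.smooth.contMDiffAt.mdifferentiableAt infty_ne_zero)
  rw [mfderiv_eq_fderiv] at h
  exact (DFunLike.congr_fun h v).symm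

end Chart

variable [IsManifold (𝓡 2) ∞ M] (g : Metric M)

lemma bil_gc (ψ : Chart M) (x : E2) (v w : E2) :
    bil (gc g ψ x) v w = g.inner (ψ.toFun x) (mfderiv (𝓡 2) (𝓡 2) ψ.toFun x v)
      (mfderiv (𝓡 2) (𝓡 2) ψ.toFun x w) := by
  let L : E2 →L[ℝ] TangentSpace (𝓡 2) (ψ.toFun x) := mfderiv (𝓡 2) (𝓡 2) ψ.toFun x
  have hsym : g.inner (ψ.toFun x) (L (ev 1)) (L (ev 0)) =
      g.inner (ψ.toFun x) (L (ev 0)) (L (ev 1)) := g.symm _ _ _
  have hgc : gc g ψ x = ![g.inner (ψ.toFun x) (L (ev 0)) (L (ev 0)),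
      g.inner (ψ.toFun x) (L (ev 0)) (L (ev 1)), g.inner (ψ.toFun x) (L (ev 1)) (L (ev 1))] := rfl
  show bil (gc g ψ x) v w = g.inner (ψ.toFun x) (L v) (L w)
  clear_value L
  rw [hgc]
  conv_rhs => rw [vec_eq v, vec_eq w]
  simp only [map_add, map_smul, add_apply, smul_apply, smul_eq_mul, hsym]
  simp [bil]
  ring

lemma bil_gc_pos (ψ : Chart M) (x : E2) {v : E2} (hv : v ≠ 0) : 0 < bil (gc g ψ x) v v := by
  rw [bil_gc]
  exact g.pos _ _ fun h => hv (ψ.mfderiv_injective x (h.trans (map_zero _).symm))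

lemma gc_pos (ψ : Chart M) (x : E2) : 0 < gc g ψ x 0 ∧ 0 < gc g ψ x 2 ∧
    0 < gc g ψ x 0 * gc g ψ x 2 - gc g ψ x 1 ^ 2 := by
  have hne : ∀ i, ev i ≠ 0 := fun i h => by simpa [ev] using congrArg (fun y : E2 => y i) h
  have h0 := bil_gc_pos g ψ x (hne 0)
  have h2 := bil_gc_pos g ψ x (hne 1)
  rw [(bil_ev _).1] at h0
  rw [(bil_ev _).2.2] at h2
  refine ⟨h0, h2, ?_⟩
  have hw : (gc g ψ x 1 • ev 0 - gc g ψ x 0 • ev 1) ≠ 0 := fun h => by
    have := congrArg (fun y : E2 => y 1) h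
    simp [ev] at this
    linarith
  have h := bil_gc_pos g ψ x hw
  simp [bil, ev] at h
  nlinarith

lemma bil_gc_change (ψ φ : Chart M) {x : E2} (h : φ.toFun x ∈ range ψ.toFun) (v w : E2) :
    bil (gc g φ x) v w = bil (gc g ψ (ψ.trans φ x))
      (fderiv ℝ (ψ.trans φ) x v) (fderiv ℝ (ψ.trans φ) x w) := by
  rw [bil_gc, bil_gc, ψ.mfderiv_trans φ h v, ψ.mfderiv_trans φ h w]
  have key : ∀ p q : M, p = q → ∀ a b : E2,
      g.inner p (show TangentSpace (𝓡 2) p from a) (show TangentSpace (𝓡 2) p from b) =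
      g.inner q (show TangentSpace (𝓡 2) q from a) (show TangentSpace (𝓡 2) q from b) := by
    rintro p q rfl a b; rfl
  exact key _ _ (ψ.trans_right φ h).symm _ _

/-- The components of a metric are smooth. -/
lemma contDiff_gc (ψ : Chart M) (k : Fin 3) : ContDiff ℝ ∞ fun x => gc g ψ x k := by
  have hs : ∀ i : Fin 2, ContMDiff (𝓡 2) (𝓡 2).tangent ∞ fun z : E2 =>
      (TotalSpace.mk' E2 (ψ.toFun z) (mfderiv (𝓡 2) (𝓡 2) ψ.toFun z (ev i)) :
        TangentBundle (𝓡 2) M) := by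
    intro i
    have hsec : ContMDiff (𝓡 2) (𝓡 2).tangent ∞ fun z : E2 =>
        (TotalSpace.mk' E2 z (ev i) : TangentBundle (𝓡 2) E2) :=
      contMDiff_vectorSpace_iff_contDiff.2 contDiff_const
    exact (ψ.smooth.contMDiff_tangentMap (m := ∞) (by norm_num)).comp hsec
  have hkey : ∀ i j : Fin 2, ContDiff ℝ ∞ fun z => g.inner (ψ.toFun z)
      (mfderiv (𝓡 2) (𝓡 2) ψ.toFun z (ev i)) (mfderiv (𝓡 2) (𝓡 2) ψ.toFun z (ev j)) := by
    intro i j
    rw [← contMDiff_iff_contDiff]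
    intro z
    have : ContMDiffAt (𝓡 2) ((𝓡 2).prod 𝓘(ℝ)) ∞ (fun m => TotalSpace.mk' ℝ
        (E := Bundle.Trivial M ℝ) (ψ.toFun m) (g.inner (ψ.toFun m)
          (mfderiv (𝓡 2) (𝓡 2) ψ.toFun m (ev i)) (mfderiv (𝓡 2) (𝓡 2) ψ.toFun m (ev j)))) z := by
      apply ContMDiffAt.clm_bundle_apply₂ (F₁ := E2) (F₂ := E2)
      · exact g.contMDiff.contMDiffAt.comp z ψ.smooth.contMDiffAt
      · exact (hs i).contMDiffAt
      · exact (hs j).contMDiffAt
    simp only [contMDiffAt_totalSpace] at this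
    exact this.2
  fin_cases k
  · simpa [gc] using hkey 0 0
  · simpa [gc] using hkey 0 1
  · simpa [gc] using hkey 1 1

lemma contDiff_gc' (ψ : Chart M) : ContDiff ℝ ∞ fun x => gc g ψ x :=
  contDiff_pi.2 (contDiff_gc g ψ)

/-- An isometry in every chart is an immersion. -/
lemma isImm_of_met_eq {ψ : Chart M} {f : E2 → R4} (h : ∀ x, gc g ψ x = met f x) : IsImm f := by
  intro x
  rw [injective_iff_map_eq_zero]
  intro v hv
  by_contra hne
  have := bil_gc_pos g ψ x hne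
  rw [h, bil_met, hv, inner_zero_left] at this
  exact this.false

/-- Isometric in charts gives isometric. -/
theorem inner_mfderiv_of_met_eq {f : M → R4} (hf : ContMDiff (𝓡 2) (𝓡 4) ∞ f)
    (h : ∀ (ψ : Chart M) x, gc g ψ x = met (fun z => f (ψ.toFun z)) x) (p : M)
    (v w : TangentSpace (𝓡 2) p) :
    @inner ℝ R4 _ (mfderiv (𝓡 2) (𝓡 4) f p v) (mfderiv (𝓡 2) (𝓡 4) f p w) = g.inner p v w := by
  obtain ⟨ψ, x, rfl, -⟩ := Chart.exists_mem (Filter.univ_mem (f := 𝓝 p))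
  obtain ⟨a, rfl⟩ := ψ.mfderiv_surjective x v
  obtain ⟨b, rfl⟩ := ψ.mfderiv_surjective x w
  rw [ψ.mfderiv_apply hf x a, ψ.mfderiv_apply hf x b]
  refine (bil_met (fun z => f (ψ.toFun z)) x a b).symm.trans ?_
  rw [← h]
  exact bil_gc g ψ x a b

end Vale.Agent.P205F
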