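import Vale.Agent.P205F.Chart.Metric
import Vale.Agent.P205F.Interfaces

/-!
# Finite chart covers with squares summing to one
-/

namespace Vale.Agent.P205F

open Set Function Filter
open scoped Manifold ContDiff Topology

variable {M : Type*} [TopologicalSpace M] [ChartedSpace E2 M] [T2Space M]

/-- From charts satisfying `P` around every point of a compact set, finitely many coordinate
functions whose squares sum to one on the set and to at most one everywhere. -/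
theorem exists_cover_of (P : Chart M → Prop) {K : Set M} (hK : IsCompact K)
    (h : ∀ p ∈ K, ∃ ψ : Chart M, p ∈ range ψ.toFun ∧ P ψ) :
    ∃ (N : ℕ) (ψ : Fin N → Chart M) (a : Fin N → E2 → ℝ), (∀ i, P (ψ i)) ∧
      (∀ i, ContDiff ℝ ∞ (a i)) ∧ (∀ i, HasCompactSupport (a i)) ∧
      (∀ i x, 0 ≤ a i x) ∧ (∀ p, ∑ i, (ψ i).ext (a i) p ^ 2 ≤ 1) ∧
      ∀ p ∈ K, ∑ i, (ψ i).ext (a i) p ^ 2 = 1 := by
  classical
  choose ψ hψ hP using h
  let b : ∀ p : K, ContDiffBump ((ψ p.1 p.2).inv p.1) := fun _ => ⟨1, 2, one_pos, one_lt_two⟩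
  have hbs : ∀ p : K, ContMDiff (𝓡 2) 𝓘(ℝ, ℝ) ∞ ((ψ p.1 p.2).ext (b p : E2 → ℝ)) := fun p =>
    Chart.ext_contMDiff _ (b p).contDiff (b p).hasCompactSupport
  have hb1 : ∀ p : K, 0 < (ψ p.1 p.2).ext (b p : E2 → ℝ) p.1 := by
    intro p
    obtain ⟨x, hx⟩ := hψ p.1 p.2
    have hinv : (ψ p.1 p.2).inv p.1 = x := (congrArg _ hx).symm.trans ((ψ p.1 p.2).left_inv x)
    have h1 : b p x = 1 := (b p).one_of_mem_closedBall (by simpa [hinv] using (b p).rIn_pos.le)
    have h2 := congrArg ((ψ p.1 p.2).ext (b p : E2 → ℝ)) hx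
    rw [Chart.ext_apply, h1] at h2
    rw [← h2]
    exact one_pos
  obtain ⟨t, ht⟩ := hK.elim_finite_subcover
    (fun p : K => {q | 0 < (ψ p.1 p.2).ext (b p : E2 → ℝ) q})
    (fun p => isOpen_lt continuous_const (hbs p).continuous)
    (fun q hq => mem_iUnion.2 ⟨⟨q, hq⟩, hb1 ⟨q, hq⟩⟩)
  let e := t.equivFin.symm
  let φ : Fin t.card → Chart M := fun i => ψ (e i).1.1 (e i).1.2
  let β : Fin t.card → E2 → ℝ := fun i => b (e i).1
  let S : M → ℝ := fun q => ∑ i, (φ i).ext (β i) q ^ 2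
  have hSs : ContMDiff (𝓡 2) 𝓘(ℝ, ℝ) ∞ S := ContMDiff.sum fun i _ => (hbs (e i).1).pow 2
  have hS0 : ∀ q, 0 ≤ S q := fun q => Finset.sum_nonneg fun i _ => sq_nonneg _
  have hSK : ∀ q ∈ K, 0 < S q := by
    intro q hq
    obtain ⟨p, hp, hpq⟩ := mem_iUnion₂.1 (ht hq)
    refine Finset.sum_pos' (fun i _ => sq_nonneg _) ⟨e.symm ⟨p, hp⟩, Finset.mem_univ _, ?_⟩
    have he : e (e.symm ⟨p, hp⟩) = ⟨p, hp⟩ := e.apply_symm_apply _
    simp only [φ, β]
    rw [he]
    exact pow_pos hpq 2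
  obtain ⟨δ, hδ, hδS⟩ : ∃ δ : ℝ, 0 < δ ∧ ∀ q ∈ K, δ ≤ S q := by
    rcases K.eq_empty_or_nonempty with rfl | hne
    · exact ⟨1, one_pos, by simp⟩
    · obtain ⟨q, hq, hmin⟩ := hK.exists_isMinOn hne hSs.continuous.continuousOn
      exact ⟨S q, hSK q hq, fun r hr => hmin hr⟩
  let den : ℝ → ℝ := fun s => s + δ * (1 - Real.smoothTransition (s / δ))
  have hden : ∀ s, 0 ≤ s → 0 < den s := by
    intro s hs
    rcases hs.lt_or_eq with hlt | rfl
    · have : 0 ≤ δ * (1 - Real.smoothTransition (s / δ)) :=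
        mul_nonneg hδ.le (sub_nonneg.2 (Real.smoothTransition.le_one _))
      show 0 < s + _
      linarith
    · simp [den, hδ]
  have hdens : ContDiff ℝ ∞ den :=
    contDiff_id.add (contDiff_const.mul (contDiff_const.sub
      ((Real.smoothTransition.contDiff).comp (contDiff_id.div_const δ))))
  let a : Fin t.card → E2 → ℝ := fun i x => β i x * (√(den (S ((φ i).toFun x))))⁻¹
  have hext : ∀ i q, (φ i).ext (a i) q = (φ i).ext (β i) q * (√(den (S q)))⁻¹ := by
    intro i q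
    by_cases hq : q ∈ range (φ i).toFun
    · obtain ⟨x, rfl⟩ := hq
      simp [a]
    · simp [Chart.ext_of_notMem _ _ hq]
  have hsum : ∀ q, ∑ i, (φ i).ext (a i) q ^ 2 = S q / den (S q) := by
    intro q
    simp only [hext, mul_pow, inv_pow, Real.sq_sqrt (hden _ (hS0 q)).le]
    rw [← Finset.sum_mul, div_eq_mul_inv]
  refine ⟨t.card, φ, a, fun i => hP _ _, fun i => ?_, fun i => ?_, fun i x => ?_, fun q => ?_,
    fun q hq => ?_⟩
  · refine (b (e i).1).contDiff.mul (contDiff_iff_contDiffAt.2 fun x => ?_)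
    exact ((Real.contDiffAt_sqrt (hden _ (hS0 _)).ne').comp x
      (hdens.comp ((φ i).contDiff_comp hSs)).contDiffAt).inv
      (Real.sqrt_ne_zero'.2 (hden _ (hS0 _)))
  · exact (b (e i).1).hasCompactSupport.mul_right
  · exact mul_nonneg (b (e i).1).nonneg (by positivity)
  · rw [hsum, div_le_one (hden _ (hS0 q))]
    have : 0 ≤ δ * (1 - Real.smoothTransition (S q / δ)) :=
      mul_nonneg hδ.le (sub_nonneg.2 (Real.smoothTransition.le_one _))
    show S q ≤ S q + _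
    linarith
  · have h1 : Real.smoothTransition (S q / δ) = 1 :=
      Real.smoothTransition.one_of_one_le ((one_le_div hδ).2 (hδS q hq))
    rw [hsum]
    simp [den, h1, (hSK q hq).ne']

/-- Finitely many charts inside an open set `U`, with squares summing to one on `K ⊆ U`. -/
theorem exists_cover [IsManifold (𝓡 2) ∞ M] {K U : Set M} (hK : IsCompact K) (hU : IsOpen U)
    (hKU : K ⊆ U) :
    ∃ (N : ℕ) (ψ : Fin N → Chart M) (a : Fin N → E2 → ℝ), (∀ i, range (ψ i).toFun ⊆ U) ∧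
      (∀ i, ContDiff ℝ ∞ (a i)) ∧ (∀ i, HasCompactSupport (a i)) ∧
      (∀ i x, 0 ≤ a i x) ∧ (∀ p, ∑ i, (ψ i).ext (a i) p ^ 2 ≤ 1) ∧
      ∀ p ∈ K, ∑ i, (ψ i).ext (a i) p ^ 2 = 1 :=
  exists_cover_of (fun ψ => range ψ.toFun ⊆ U) hK fun p hp => by
    obtain ⟨ψ, x, hx, hsub⟩ := Chart.exists_mem (hU.mem_nhds (hKU hp))
    exact ⟨ψ, ⟨x, hx⟩, hsub⟩

omit [T2Space M] in
/-- The value of a primitive term, through the extension by zero. -/
lemma Prim.val_eq (P : Prim M) (φ : Chart M) (x : E2) :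
    P.val φ x = P.ψ.ext P.a (φ.toFun x) ^ 2 • sq (dcoord P.ψ φ x) := by
  by_cases h : φ.toFun x ∈ range P.ψ.toFun
  · obtain ⟨y, hy⟩ := h
    simp [Prim.val, ← hy, P.ψ.left_inv]
  · have h0 : dcoord P.ψ φ x = 0 := by funext i; simp [dcoord, h]
    have : sq (dcoord P.ψ φ x) = 0 := by funext i; fin_cases i <;> simp [sq, h0]
    simp [Prim.val, this]

end Vale.Agent.P205F
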