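import Vale.Agent.P205F.Defs

/-!
# Charts of the plane: shrinking the plane into a neighbourhood, fixing a germ
-/

namespace Vale.Agent.P205F

open Set Function Filter MeasureTheory
open scoped Manifold ContDiff Topology

lemma infty_ne_zero : (∞ : WithTop ℕ∞) ≠ 0 := by simp

/-- A smooth injective map of the plane with injective differential is a chart of the plane. -/
lemma exists_chart_of_injective {F : E2 → E2} (hF : ContDiff ℝ ∞ F) (hinj : Injective F)
    (hd : ∀ x, Injective (fderiv ℝ F x)) : ∃ ψ : Chart E2, ψ.toFun = F := by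
  let e : ∀ x, E2 ≃L[ℝ] E2 := fun x =>
    (LinearEquiv.ofInjectiveEndo (fderiv ℝ F x).toLinearMap (hd x)).toContinuousLinearEquiv
  have hfd : ∀ x, HasFDerivAt F (e x : E2 →L[ℝ] E2) x := by
    intro x
    refine ((hF.differentiable infty_ne_zero).differentiableAt.hasFDerivAt (x := x)).congr_fderiv ?_
    ext v
    simp [e]
  have hst : ∀ x, HasStrictFDerivAt F (e x : E2 →L[ℝ] E2) x := fun x =>
    hF.contDiffAt.hasStrictFDerivAt' (hfd x) infty_ne_zero
  have hleft : ∀ x, invFun F (F x) = x := leftInverse_invFun hinj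
  have hinv : ContDiffOn ℝ ∞ (invFun F) (range F) := by
    rintro _ ⟨x, rfl⟩
    refine ContDiffAt.contDiffWithinAt ?_
    refine (hF.contDiffAt.to_localInverse (hfd x) infty_ne_zero).congr_of_eventuallyEq ?_
    filter_upwards [(hst x).eventually_right_inverse] with y hy
    conv_lhs => rw [← hy]
    exact hleft _
  exact ⟨{ toFun := F
           inv := invFun F
           open_emb := Topology.IsOpenEmbedding.of_continuous_injective_isOpenMap hF.continuous hinj
             (isOpenMap_of_hasStrictFDerivAt_equiv hst)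
           smooth := hF.contMDiff
           left_inv := hleft
           smooth_inv := hinv.contMDiffOn }, rfl⟩

/-- A bounded smooth increasing reparametrisation of the line which fixes `(-1, 1)`. -/
lemma exists_squash : ∃ θ : ℝ → ℝ, ContDiff ℝ ∞ θ ∧ (∀ t, 0 < deriv θ t) ∧ (∀ t, |θ t| ≤ 8) ∧
    ∀ t, |t| < 1 → θ t = t := by
  let b : ContDiffBump (0 : ℝ) := ⟨1, 2, one_pos, one_lt_two⟩
  let w : ℝ → ℝ := fun t => b t + (1 - b t) * (1 + t ^ 2)⁻¹
  have hw : ContDiff ℝ ∞ w := b.contDiff.add ((contDiff_const.sub b.contDiff).mul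
    ((contDiff_const.add (contDiff_id.pow 2)).inv fun t => ne_of_gt (by positivity)))
  have hpos : ∀ t, 0 < w t := by
    intro t
    show 0 < b t + (1 - b t) * (1 + t ^ 2)⁻¹
    rcases lt_or_eq_of_le (b.le_one (x := t)) with hb | hb
    · have := b.nonneg (x := t)
      have : 0 < (1 - b t) * (1 + t ^ 2)⁻¹ := mul_pos (by linarith) (by positivity)
      linarith [b.nonneg (x := t)]
    · rw [hb]; norm_num
  have hle : ∀ t, w t ≤ 5 * (1 + t ^ 2)⁻¹ := by
    intro t
    show b t + (1 - b t) * (1 + t ^ 2)⁻¹ ≤ 5 * (1 + t ^ 2)⁻¹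
    have h0 := b.nonneg (x := t)
    have h1 := b.le_one (x := t)
    by_cases ht : |t| < 2
    · have ht2 : t ^ 2 ≤ 4 := by nlinarith [abs_lt.1 ht]
      have hi : (1 : ℝ) / 5 ≤ (1 + t ^ 2)⁻¹ := by
        rw [one_div]; exact inv_anti₀ (by positivity) (by linarith)
      have hi1 : (1 + t ^ 2)⁻¹ ≤ (1 : ℝ) := inv_le_one_of_one_le₀ (by nlinarith)
      nlinarith
    · have hz : b t = 0 := b.zero_of_le_dist (by simpa [Real.dist_eq] using not_lt.1 ht)
      rw [hz]
      have : (0 : ℝ) < (1 + t ^ 2)⁻¹ := by positivity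
      linarith
  let θ : ℝ → ℝ := fun t => ∫ u in (0 : ℝ)..t, w u
  have hd : ∀ t, HasDerivAt θ (w t) t := fun t => hw.continuous.integral_hasStrictDerivAt 0 t
    |>.hasDerivAt
  have hder : deriv θ = w := funext fun t => (hd t).deriv
  have hθ0 : θ 0 = 0 := intervalIntegral.integral_same
  refine ⟨θ, contDiff_infty_iff_deriv.2 ⟨fun t => (hd t).differentiableAt, hder ▸ hw⟩,
    fun t => hder ▸ hpos t, fun t => ?_, fun t ht => ?_⟩
  · have hmono : Monotone θ := monotone_of_deriv_nonneg (fun t => (hd t).differentiableAt)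
      fun t => by rw [hder]; exact (hpos t).le
    have hg : ∀ t, HasDerivAt (fun t => 5 * Real.arctan t - θ t) (5 * (1 + t ^ 2)⁻¹ - w t) t :=
      fun t => by simpa [one_div] using ((Real.hasDerivAt_arctan t).const_mul 5).fun_sub (hd t)
    have hmono' : Monotone fun t => 5 * Real.arctan t - θ t :=
      monotone_of_deriv_nonneg (fun t => (hg t).differentiableAt)
        fun t => by rw [(hg t).deriv]; linarith [hle t]
    have hπ := Real.pi_le_four
    have ha := Real.arctan_lt_pi_div_two t
    have hb := Real.neg_pi_div_two_lt_arctan t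
    have hπ' := Real.pi_lt_d2
    rw [abs_le]
    rcases le_total 0 t with h | h
    · have h1 := hmono h; have h2 := hmono' h
      simp only [hθ0, Real.arctan_zero, mul_zero, sub_zero] at h1 h2
      constructor <;> linarith
    · have h1 := hmono h; have h2 := hmono' h
      simp only [hθ0, Real.arctan_zero, mul_zero, sub_zero] at h1 h2
      constructor <;> linarith
  · have hsub : ∀ u ∈ Set.uIcc (0 : ℝ) t, w u = 1 := by
      intro u hu
      have hu1 : |u| ≤ 1 := by
        have := abs_sub_left_of_mem_uIcc hu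
        simp at this
        linarith
      have hb : b u = 1 := b.one_of_mem_closedBall (by simpa [Real.dist_eq] using hu1)
      simp [w, hb]
    show ∫ u in (0 : ℝ)..t, w u = t
    rw [intervalIntegral.integral_congr hsub]
    simp

/-- A chart of the plane into a given neighbourhood of `x`, equal to the identity near `x` and
mapping vertical lines to vertical lines. -/
theorem exists_shrink_vertical {V : Set E2} {x : E2} (hV : V ∈ 𝓝 x) :
    ∃ σ : Chart E2, Set.range σ.toFun ⊆ V ∧ σ.toFun =ᶠ[𝓝 x] id ∧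
      ∀ z, fderiv ℝ σ.toFun z (ev 1) = fderiv ℝ σ.toFun z (ev 1) 1 • ev 1 := by
  obtain ⟨θ, hθ, hpos, hbd, hid⟩ := exists_squash
  obtain ⟨ε, hε, hball⟩ := Metric.mem_nhds_iff.1 hV
  obtain ⟨r, hr, hrε⟩ : ∃ r : ℝ, 0 < r ∧ 12 * r < ε := ⟨ε / 13, by positivity, by linarith⟩
  let F : E2 → E2 := fun z => x + r • WithLp.toLp 2 fun i => θ (r⁻¹ * (z i - x i))
  have hFi : ∀ z i, F z i = x i + r * θ (r⁻¹ * (z i - x i)) := fun z i => by simp [F]
  have hFd : ContDiff ℝ ∞ F := by
    rw [contDiff_euclidean]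
    intro i
    simp_rw [hFi]
    fun_prop
  have hmono : StrictMono θ := strictMono_of_deriv_pos hpos
  have hinj : Injective F := by
    intro z z' h
    ext i
    have h' := congrArg (fun y : E2 => y i) h
    simp only [hFi] at h'
    have := hmono.injective (mul_left_cancel₀ hr.ne' (add_left_cancel h'))
    exact sub_left_injective (mul_left_cancel₀ (inv_ne_zero hr.ne') this)
  have hd : ∀ z, Injective (fderiv ℝ F z) := by
    intro z
    rw [injective_iff_map_eq_zero]
    intro v hv
    ext i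
    let P : E2 →L[ℝ] ℝ := EuclideanSpace.proj i
    have h1 : HasFDerivAt (fun y => P (F y)) (P.comp (fderiv ℝ F z)) z :=
      P.hasFDerivAt.comp z ((hFd.differentiable infty_ne_zero).differentiableAt.hasFDerivAt)
    have h2 : HasFDerivAt (fun y => P (F y))
        ((r * (deriv θ (r⁻¹ * (z i - x i)) * r⁻¹)) • P) z := by
      have hP : HasFDerivAt (fun y : E2 => r⁻¹ * (y i - x i)) (r⁻¹ • P) z :=
        (P.hasFDerivAt.sub_const (x i)).const_mul r⁻¹
      have := (((hθ.differentiable infty_ne_zero).differentiableAt.hasDerivAt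
        (x := r⁻¹ * (z i - x i))).comp_hasFDerivAt z hP).const_mul r |>.const_add (x i)
      simp only [smul_smul] at this
      simpa [P, hFi, mul_assoc] using this
    have h := congrArg (fun A : E2 →L[ℝ] ℝ => A v) (h1.unique h2)
    simp [hv, P, hr.ne', (hpos _).ne'] at h
    simpa using h
  obtain ⟨σ, hσ⟩ := exists_chart_of_injective hFd hinj hd
  refine ⟨σ, ?_, ?_, ?_⟩
  · rw [hσ]
    rintro _ ⟨z, rfl⟩
    apply hball
    rw [Metric.mem_ball, dist_eq_norm]
    have hn : ‖WithLp.toLp 2 fun i => θ (r⁻¹ * (z i - x i))‖ ≤ (12 : ℝ) := by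
      rw [EuclideanSpace.norm_eq, Real.sqrt_le_left (by norm_num), Fin.sum_univ_two]
      simp only [Real.norm_eq_abs, sq_abs]
      have h0 := sq_le_sq' (abs_le.1 (hbd (r⁻¹ * (z 0 - x 0)))).1
        (abs_le.1 (hbd (r⁻¹ * (z 0 - x 0)))).2
      have h1 := sq_le_sq' (abs_le.1 (hbd (r⁻¹ * (z 1 - x 1)))).1
        (abs_le.1 (hbd (r⁻¹ * (z 1 - x 1)))).2
      linarith
    simp only [F, add_sub_cancel_left, norm_smul, Real.norm_eq_abs, abs_of_pos hr]
    calc r * _ ≤ r * 12 := mul_le_mul_of_nonneg_left hn hr.le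
      _ < ε := by linarith
  · rw [hσ]
    filter_upwards [Metric.ball_mem_nhds x hr] with z hz
    ext i
    have hi : |z i - x i| < r := lt_of_le_of_lt
      (by simpa [Real.norm_eq_abs] using PiLp.norm_apply_le (z - x) i)
      (by simpa [dist_eq_norm] using hz)
    rw [hFi, hid]
    · simp [hr.ne']
    · rw [abs_mul, abs_inv, abs_of_pos hr, inv_mul_lt_iff₀ hr, mul_one]; exact hi
  · rw [hσ]
    intro z
    let P : E2 →L[ℝ] ℝ := EuclideanSpace.proj 0
    have h1 : HasFDerivAt (fun y => P (F y)) (P.comp (fderiv ℝ F z)) z :=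
      P.hasFDerivAt.comp z ((hFd.differentiable infty_ne_zero).differentiableAt.hasFDerivAt)
    have h2 : HasFDerivAt (fun y => P (F y))
        ((r * (deriv θ (r⁻¹ * (z 0 - x 0)) * r⁻¹)) • P) z := by
      have hP : HasFDerivAt (fun y : E2 => r⁻¹ * (y 0 - x 0)) (r⁻¹ • P) z :=
        (P.hasFDerivAt.sub_const (x 0)).const_mul r⁻¹
      have := (((hθ.differentiable infty_ne_zero).differentiableAt.hasDerivAt
        (x := r⁻¹ * (z 0 - x 0))).comp_hasFDerivAt z hP).const_mul r |>.const_add (x 0)
      simp only [smul_smul] at this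
      simpa [P, hFi, mul_assoc] using this
    have h0 : fderiv ℝ F z (ev 1) 0 = 0 := by
      simpa [P, ev] using congrArg (fun A : E2 →L[ℝ] ℝ => A (ev 1)) (h1.unique h2)
    ext i
    fin_cases i
    · simpa [ev] using h0
    · simp [ev]

/-- A chart of the plane into a given neighbourhood of `x`, equal to the identity near `x`. -/
theorem exists_shrink {V : Set E2} {x : E2} (hV : V ∈ 𝓝 x) :
    ∃ σ : Chart E2, Set.range σ.toFun ⊆ V ∧ σ.toFun =ᶠ[𝓝 x] id :=
  let ⟨σ, h1, h2, _⟩ := exists_shrink_vertical hV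
  ⟨σ, h1, h2⟩

end Vale.Agent.P205F
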